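import Vale.Agent.Results.P228.LineFibres
import Vale.Agent.Results.P228.TriangularEuclid
import Vale.Agent.Results.P228.TriangularTower

/-!
Hilbert-Smith: the three results of this folder in one statement.
-/

namespace Vale.Agent.Results.P228.AAllResults

open Vale.Agent.Results.P228.TriangularTower

universe u v

/-- (1) A faithful continuous action of the p-adic integers has no nonzero element preserving every
fibre of a map whose nonempty fibres are topological lines.
(2) There is no faithful continuous triangular action of the p-adic integers on `ℝ^n`.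
(3) If the conjecture holds in dimension `n`, there is no faithful continuous triangular action on
`M × ℝ^k` for a connected `n`-manifold `M`. -/
theorem result :
    (∀ (p : ℕ) [Fact p.Prime] (E : Type u) (B : Type v) [TopologicalSpace E]
      [AddAction ℤ_[p] E] [ContinuousVAdd ℤ_[p] E] [FaithfulVAdd ℤ_[p] E]
      (π : E → B), (∀ x : E, Nonempty ((π ⁻¹' {π x} : Set E) ≃ₜ ℝ)) →
      ∀ g : ℤ_[p], (∀ x : E, π (g +ᵥ x) = π x) → g = 0) ∧
    (∀ (n : ℕ) (p : ℕ) [Fact p.Prime]
      [AddAction ℤ_[p] (Fin n → ℝ)] [ContinuousVAdd ℤ_[p] (Fin n → ℝ)],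
      (∀ (g : ℤ_[p]) (x y : Fin n → ℝ) (i : Fin n),
        (∀ j ≤ i, x j = y j) → (g +ᵥ x) i = (g +ᵥ y) i) →
      ¬ FaithfulVAdd ℤ_[p] (Fin n → ℝ)) ∧
    (∀ (n : ℕ), HilbertSmith n → ∀ (k : ℕ) (p : ℕ) [Fact p.Prime]
      (M : Type) [TopologicalSpace M] [T2Space M] [SecondCountableTopology M] [ConnectedSpace M]
      [ChartedSpace (EuclideanSpace ℝ (Fin n)) M]
      [AddAction ℤ_[p] (M × (Fin k → ℝ))] [ContinuousVAdd ℤ_[p] (M × (Fin k → ℝ))],
      (∀ (g : ℤ_[p]) (z w : M × (Fin k → ℝ)), z.1 = w.1 → (g +ᵥ z).1 = (g +ᵥ w).1) →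
      (∀ (g : ℤ_[p]) (z w : M × (Fin k → ℝ)) (i : Fin k), z.1 = w.1 →
        (∀ j ≤ i, z.2 j = w.2 j) → (g +ᵥ z).2 i = (g +ᵥ w).2 i) →
      ¬ FaithfulVAdd ℤ_[p] (M × (Fin k → ℝ))) :=
  ⟨fun p _ _ _ _ _ _ _ π hfib g hg => LineFibres.result p π hfib g hg,
    fun n p _ _ _ htri => TriangularEuclid.result n p htri,
    fun n hHS k p _ M _ _ _ _ _ _ _ hbase htri =>
      TriangularTower.result n hHS k p M hbase htri⟩

end Vale.Agent.Results.P228.AAllResults
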